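/-
Row 152, module FP (helper145).  THE FIXED POINT  `Xh ≅ Φ(Xh)`  OF THE ONE-LETTER TOWER (v4), purely algebraic part.

INPUT (`Input H Z₀ I`): a group `H` with a finite presentation `⟨Z₀ | RH⟩`, a family `p : I → H` freely generating a
free subgroup `P`, labels `lab i ∈ F(Z ⊔ {j})`, `Z = Z₀ ⊔ {ρ}`, such that every `z ∈ Z` and `j` is the label of some `p i`
("generators for free").

For a `Z`-marked group `(X, m : Z → X)`:  `Y X = X ∗ C₂`,  `π_X : F(I) → Y X`, `i ↦ lab i (z ↦ inl (m z), j ↦ inr σ)`,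
`Φ(X,m) = MHNN (H × Y X)` with ONE stable letter `t`,  `t (p,1) t⁻¹ = (p, π_X p)`  (`p ∈ P`).

This file: definitions only.
-/
import Claimed.Agent.R152.H.MHNNFp

set_option autoImplicit false

namespace Claimed.Agent.R152.FP

open Subgroup Function Monoid Coprod
open Claimed.Agent.R152.H

universe u

/-- The group of order two. -/
abbrev C2 : Type := Multiplicative (ZMod 2)

/-- Its generator. -/
def sig : C2 := Multiplicative.ofAdd 1

/-- The alphabet `Z = Z₀ ⊔ {ρ}`. -/
abbrev Zt (Z₀ : Type u) : Type u := Z₀ ⊕ PUnit.{u+1}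

/-- The alphabet `Z ⊔ {j}` of the labels. -/
abbrev Zj (Z₀ : Type u) : Type u := Zt Z₀ ⊕ PUnit.{u+1}

/-- The input of the construction. -/
structure Input (H : Type u) [Group H] (Z₀ I : Type u) where
  /-- generators of `H` -/
  gH : Z₀ → H
  gH_surj : Surjective (FreeGroup.lift gH)
  /-- relators of `H` -/
  RH : Set (FreeGroup Z₀)
  RH_fin : RH.Finite
  RH_ker : normalClosure RH = (FreeGroup.lift gH).ker
  /-- free generators of `P ≤ H` -/
  p : I → H
  p_inj : Injective (FreeGroup.lift p)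
  /-- the labels -/
  lab : I → FreeGroup (Zj Z₀)
  /-- generators for free -/
  iz : Zt Z₀ → I
  lab_iz : ∀ z, lab (iz z) = FreeGroup.of (Sum.inl z)
  /-- the index with label `j` -/
  ij : I
  lab_ij : lab ij = FreeGroup.of (Sum.inr PUnit.unit)

variable {H : Type u} [Group H] {Z₀ I : Type u} (D : Input H Z₀ I)

section Phi

variable {X : Type u} [Group X] (m : Zt Z₀ → X)

/-- `Y X = X ∗ C₂`. -/
abbrev Y (X : Type u) [Group X] : Type u := X ∗ C2

/-- Evaluation of labels in `Y X`. -/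
def labY : FreeGroup (Zj Z₀) →* Y X :=
  FreeGroup.lift (Sum.elim (fun z => (inl (m z) : Y X)) (fun _ => (inr sig : Y X)))

/-- `π_X : F(I) → Y X`. -/
def piX : FreeGroup I →* Y X := FreeGroup.lift fun i => labY m (D.lab i)

/-- `w ↦ (p(w), 1)`. -/
def iA (X : Type u) [Group X] : FreeGroup I →* H × Y X := (FreeGroup.lift D.p).prod 1

/-- `w ↦ (p(w), π_X w)`. -/
def iB : FreeGroup I →* H × Y X := (FreeGroup.lift D.p).prod (piX D m)

theorem iA_injective : Injective (iA D X) := fun _ _ h => D.p_inj (congrArg Prod.fst h)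

theorem iB_injective : Injective (iB D m) := fun _ _ h => D.p_inj (congrArg Prod.fst h)

/-- The isomorphism of the associated subgroups `P × 1 → graph π_X`. -/
noncomputable def eqv : (iA D X).range ≃* (iB D m).range :=
  (MonoidHom.ofInjective (iA_injective D)).symm.trans (MonoidHom.ofInjective (iB_injective D m))

/-- `Φ(X,m)`. -/
abbrev Phi : Type u :=
  MHNN (H × Y X) (fun _ : Unit => (iA D X).range) (fun _ => (iB D m).range) (fun _ => eqv D m)

end Phi

/-! ### The free group, the substitution `θ_F`, the relators -/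

/-- `F = F(Z)`. -/
abbrev F (Z₀ : Type u) : Type u := FreeGroup (Zt Z₀)

/-- `F(Z₀) → F(Z)`. -/
def inc : FreeGroup Z₀ →* F Z₀ := FreeGroup.map Sum.inl

/-- The letter `ρ` (it will be the stable letter `t` of `Φ`). -/
def rhoF : F Z₀ := FreeGroup.of (Sum.inr PUnit.unit)

/-- A word of `F(Z₀)` representing `p i`. -/
noncomputable def pt (i : I) : FreeGroup Z₀ := Classical.choose (D.gH_surj (D.p i))

theorem lift_pt (i : I) : FreeGroup.lift D.gH (pt D i) = D.p i := Classical.choose_spec (D.gH_surj (D.p i))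

/-- `i ↦ p̃ᵢ⁻¹ ρ p̃ᵢ ρ⁻¹`, the word which represents the label of `p i`. -/
noncomputable def brk (i : I) : F Z₀ := (inc (pt D i))⁻¹ * rhoF * inc (pt D i) * rhoF⁻¹

/-- The substitution `θ_F : z ↦ p̃_z⁻¹ ρ p̃_z ρ⁻¹`. -/
noncomputable def thF : F Z₀ →* F Z₀ := FreeGroup.lift fun z => brk D (D.iz z)

/-- The word `j_F`. -/
noncomputable def jF : F Z₀ := brk D D.ij

/-- Evaluation of labels in `F`. -/
noncomputable def labF : FreeGroup (Zj Z₀) →* F Z₀ :=
  FreeGroup.lift (Sum.elim (fun z => thF D (FreeGroup.of z)) (fun _ => jF D))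

/-- The finite set of relators. -/
def Rfin : Set (F Z₀) :=
  (inc '' D.RH) ∪
  {x | ∃ (s : Zj Z₀) (z : Z₀), x = labF D (FreeGroup.of s) * inc (FreeGroup.of z) * (labF D (FreeGroup.of s))⁻¹ *
      (inc (FreeGroup.of z))⁻¹} ∪
  {jF D * jF D} ∪
  {x | ∃ i : I, x = brk D i * (labF D (D.lab i))⁻¹}

/-- All relators: `⋃ₙ θ_Fⁿ(Rfin)`. -/
def Rall : Set (F Z₀) := {x | ∃ (n : ℕ), ∃ r ∈ Rfin D, x = (thF D)^[n] r}

/-- `N̂`. -/
def Nh : Subgroup (F Z₀) := normalClosure (Rall D)

instance Nh.normal : (Nh D).Normal := normalClosure_normal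

/-- `X̂ = F / N̂`. -/
abbrev Xh : Type u := F Z₀ ⧸ Nh D

/-- `F → X̂`. -/
def mk : F Z₀ →* Xh D := QuotientGroup.mk' (Nh D)

/-- The marking of `X̂`. -/
def mark : Zt Z₀ → Xh D := fun z => mk D (FreeGroup.of z)

/-- `Φ(X̂)`. -/
abbrev PhiXh : Type u := Phi D (mark D)

end Claimed.Agent.R152.FP
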