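/-
Row 152, module FP (helper145).  The two homomorphisms  `ub : X̂ → Φ(X̂)`  and  `vP : Φ(X̂) → X̂`.
All proofs are "check on generators".  Conventions of `MHNN`: `t i * of a = of (φ i a) * t i`.
-/
import Claimed.Agent.R152.FP.Def

set_option autoImplicit false

namespace Claimed.Agent.R152.FP

open Subgroup Function Monoid Coprod
open Claimed.Agent.R152.H

universe u

variable {H : Type u} [Group H] {Z₀ I : Type u} (D : Input H Z₀ I)

/-! ### 1. `θ_F` and `N̂` -/

theorem mem_Rall_of_mem_Rfin {r : F Z₀} (h : r ∈ Rfin D) : r ∈ Rall D := ⟨0, r, h, rfl⟩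

/-- `θ_F(Rall) ⊆ Rall` (`Function.iterate_succ_apply'`). -/
theorem thF_mem_Rall {x : F Z₀} (h : x ∈ Rall D) : thF D x ∈ Rall D := by
  obtain ⟨n, r, hr, rfl⟩ := h
  exact ⟨n + 1, r, hr, (Function.iterate_succ_apply' _ _ _).symm⟩

/-- `θ_F(N̂) ≤ N̂`: `N̂.comap θ_F` is normal and contains `Rall` (`normalClosure_le_normal`). -/
theorem Nh_le_comap : Nh D ≤ (Nh D).comap (thF D) := by
  apply normalClosure_le_normal
  intro x hx
  exact subset_normalClosure (thF_mem_Rall D hx)

/-- `θ̂ : X̂ → X̂`. -/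
noncomputable def thh : Xh D →* Xh D := QuotientGroup.map (Nh D) (Nh D) (thF D) (Nh_le_comap D)

@[simp] theorem thh_mk (w : F Z₀) : thh D (mk D w) = mk D (thF D w) := rfl

theorem mk_surjective : Surjective (mk D) := QuotientGroup.mk'_surjective _

theorem mk_eq_one_iff {w : F Z₀} : mk D w = 1 ↔ w ∈ Nh D := QuotientGroup.eq_one_iff w

theorem mk_Rall {x : F Z₀} (h : x ∈ Rall D) : mk D x = 1 :=
  (mk_eq_one_iff D).2 (subset_normalClosure h)

theorem mk_Rfin {x : F Z₀} (h : x ∈ Rfin D) : mk D x = 1 := mk_Rall D (mem_Rall_of_mem_Rfin D h)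

/-- The four kinds of relations of `X̂`. -/
theorem mk_inc_RH {r : FreeGroup Z₀} (h : r ∈ D.RH) : mk D (inc r) = 1 :=
  mk_Rfin D (Or.inl (Or.inl (Or.inl ⟨r, h, rfl⟩)))

theorem mk_comm (s : Zj Z₀) (z : Z₀) :
    mk D (labF D (FreeGroup.of s)) * mk D (inc (FreeGroup.of z)) =
      mk D (inc (FreeGroup.of z)) * mk D (labF D (FreeGroup.of s)) := by
  have h := mk_Rfin D (x := labF D (FreeGroup.of s) * inc (FreeGroup.of z) *
    (labF D (FreeGroup.of s))⁻¹ * (inc (FreeGroup.of z))⁻¹) (Or.inl (Or.inl (Or.inr ⟨s, z, rfl⟩)))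
  simp only [map_mul, map_inv] at h
  rw [mul_inv_eq_one, mul_inv_eq_iff_eq_mul] at h
  exact h

theorem mk_jF_sq : mk D (jF D) * mk D (jF D) = 1 := by
  rw [← map_mul]
  exact mk_Rfin D (Or.inl (Or.inr rfl))

theorem mk_brk (i : I) : mk D (brk D i) = mk D (labF D (D.lab i)) := by
  have h := mk_Rfin D (x := brk D i * (labF D (D.lab i))⁻¹) (Or.inr ⟨i, rfl⟩)
  rwa [map_mul, map_inv, mul_inv_eq_one] at h

/-! ### 2. `ub : X̂ → Φ(X̂)` -/

section Eqv
variable {X : Type u} [Group X] (m : Zt Z₀ → X)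

/-- `eqv` sends `(p(w),1)` to `(p(w), π_X w)`. (`MonoidHom.ofInjective`, `MulEquiv.symm_apply_eq`.) -/
theorem eqv_iA (w : FreeGroup I) (h : iA D X w ∈ (iA D X).range) :
    (eqv D m ⟨iA D X w, h⟩ : H × Y X) = iB D m w := by
  have h1 : (MonoidHom.ofInjective (iA_injective D (X := X))).symm ⟨iA D X w, h⟩ = w := by
    rw [MulEquiv.symm_apply_eq]
    rfl
  show ((MonoidHom.ofInjective (iB_injective D m))
    ((MonoidHom.ofInjective (iA_injective D (X := X))).symm ⟨iA D X w, h⟩) : H × Y X) = iB D m w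
  rw [h1]
  rfl

/-- The defining relation of `Φ`. -/
theorem t_mul_iA (w : FreeGroup I) :
    (MHNN.t () : Phi D m) * MHNN.of (iA D X w) = MHNN.of (iB D m w) * MHNN.t () := by
  have h := MHNN.t_mul_of (φ := fun _ : Unit => eqv D m) () ⟨iA D X w, ⟨w, rfl⟩⟩
  have e := eqv_iA D m w ⟨w, rfl⟩
  have h' : (MHNN.t () : Phi D m) * MHNN.of (iA D X w) =
      MHNN.of (eqv D m ⟨iA D X w, ⟨w, rfl⟩⟩ : H × Y X) * MHNN.t () := h
  rw [e] at h'
  exact h'

end Eqv

/-- `F → Φ(X̂)`: `z₀ ↦ (g z₀, 1)`, `ρ ↦ t`. -/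
noncomputable def uF : F Z₀ →* PhiXh D :=
  FreeGroup.lift (Sum.elim (fun z => MHNN.of ((D.gH z, 1) : H × Y (Xh D))) (fun _ => MHNN.t ()))

/-- Both sides are homomorphisms of `w`; check on generators (`FreeGroup.ext_hom` or induction). -/
theorem uF_inc (w : FreeGroup Z₀) :
    uF D (inc w) = MHNN.of ((FreeGroup.lift D.gH w, 1) : H × Y (Xh D)) := by
  have h : (uF D).comp inc =
      (MHNN.of : H × Y (Xh D) →* PhiXh D).comp
        ((MonoidHom.inl H (Y (Xh D))).comp (FreeGroup.lift D.gH)) := by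
    ext z
    simp [uF, inc]
  exact DFunLike.congr_fun h w

theorem uF_rhoF : uF D rhoF = MHNN.t () := by
  simp [uF, rhoF]

/-- `uF (p̃⁻¹ ρ p̃ ρ⁻¹) = (p,1)⁻¹ t (p,1) t⁻¹ = (p,1)⁻¹ (p, π p) = (1, π p)`; use `uF_inc`, `lift_pt`,
`t_mul_iA` with `w = of i`. -/
theorem uF_brk (i : I) :
    uF D (brk D i) = MHNN.of ((1, piX D (mark D) (FreeGroup.of i)) : H × Y (Xh D)) := by
  have h := t_mul_iA D (mark D) (FreeGroup.of i)
  have hA : iA D (Xh D) (FreeGroup.of i) = (D.p i, 1) := by simp [iA]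
  have hB : iB D (mark D) (FreeGroup.of i) = (D.p i, piX D (mark D) (FreeGroup.of i)) := by
    simp [iB]
  rw [hA, hB] at h
  unfold brk
  rw [map_mul, map_mul, map_mul, map_inv, map_inv, uF_inc, uF_rhoF, lift_pt,
    mul_assoc (MHNN.of ((D.p i, 1) : H × Y (Xh D)))⁻¹, h, ← mul_assoc, mul_inv_cancel_right,
    ← map_inv, ← map_mul]
  congr 1
  simp

/-- Check on generators `z`: `uF_brk (iz z)`, `piX (of (iz z)) = labY (lab (iz z)) = labY (of (inl z)) = inl (mark z)`. -/
theorem uF_thF (w : F Z₀) :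
    uF D (thF D w) = MHNN.of ((1, inl (mk D w)) : H × Y (Xh D)) := by
  have h : (uF D).comp (thF D) =
      (MHNN.of : H × Y (Xh D) →* PhiXh D).comp
        ((MonoidHom.inr H (Y (Xh D))).comp ((inl : Xh D →* Y (Xh D)).comp (mk D))) := by
    ext z
    simp [thF, uF_brk, piX, D.lab_iz, labY, mark]
  exact DFunLike.congr_fun h w

theorem uF_jF : uF D (jF D) = MHNN.of ((1, inr sig) : H × Y (Xh D)) := by
  unfold jF
  rw [uF_brk]
  simp [piX, D.lab_ij, labY]

/-- Check on generators with `uF_thF`, `uF_jF`. -/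
theorem uF_labF (l : FreeGroup (Zj Z₀)) :
    uF D (labF D l) = MHNN.of ((1, labY (mark D) l) : H × Y (Xh D)) := by
  have h : (uF D).comp (labF D) =
      (MHNN.of : H × Y (Xh D) →* PhiXh D).comp
        ((MonoidHom.inr H (Y (Xh D))).comp (labY (mark D))) := by
    ext s
    rcases s with z | _
    · simp [labF, labY, uF_thF, mark]
    · simp [labF, labY, uF_jF]
  exact DFunLike.congr_fun h l

/-- The four kinds of relators die: (a) `uF_inc` and `RH ⊆ ker`; (b) `(1,y)` and `(h,1)` commute; (c) `sig * sig = 1`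
(`decide`/`rfl` in `ZMod 2`); (d) `uF_brk`, `uF_labF`, `piX (of i) = labY (lab i)`. -/
theorem uF_Rfin {r : F Z₀} (h : r ∈ Rfin D) : uF D r = 1 := by
  rcases h with ((⟨r0, hr0, rfl⟩ | ⟨s, z, rfl⟩) | hj) | ⟨i, rfl⟩
  · have h1 : FreeGroup.lift D.gH r0 = 1 := by
      have h2 : r0 ∈ (FreeGroup.lift D.gH).ker := by
        rw [← D.RH_ker]
        exact subset_normalClosure hr0
      exact h2
    rw [uF_inc, h1]
    exact map_one _
  · simp only [map_mul, map_inv, uF_labF, uF_inc]
    rw [← map_inv, ← map_inv, ← map_mul, ← map_mul, ← map_mul]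
    have h1 : ((1, labY (mark D) (FreeGroup.of s)) : H × Y (Xh D)) *
        (FreeGroup.lift D.gH (FreeGroup.of z), 1) *
        ((1, labY (mark D) (FreeGroup.of s)) : H × Y (Xh D))⁻¹ *
        ((FreeGroup.lift D.gH (FreeGroup.of z), 1) : H × Y (Xh D))⁻¹ = 1 := by
      apply Prod.ext <;> simp
    rw [h1]
    exact map_one _
  · rw [Set.mem_singleton_iff] at hj
    rw [hj, map_mul, uF_jF, ← map_mul]
    have h1 : ((1, inr sig) : H × Y (Xh D)) * (1, inr sig) = 1 := by
      have h2 : sig * sig = 1 := by decide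
      apply Prod.ext
      · simp
      · show (inr sig : Y (Xh D)) * inr sig = 1
        rw [← map_mul, h2, map_one]
    rw [h1]
    exact map_one _
  · rw [map_mul, map_inv, uF_brk, uF_labF]
    have h1 : piX D (mark D) (FreeGroup.of i) = labY (mark D) (D.lab i) := by simp [piX]
    rw [h1, mul_inv_cancel]

/-- `n = 0`: `uF_Rfin`. `n + 1`: `uF (θ_F w) = (1, inl (mk w))` and `mk w = 1` for `w = θ_Fⁿ r ∈ Rall`. -/
theorem uF_Rall {x : F Z₀} (h : x ∈ Rall D) : uF D x = 1 := by
  obtain ⟨n, r, hr, rfl⟩ := h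
  cases n with
  | zero => exact uF_Rfin D hr
  | succ n =>
    rw [Function.iterate_succ_apply', uF_thF, mk_Rall D ⟨n, r, hr, rfl⟩, map_one]
    exact map_one _

theorem Nh_le_ker_uF : Nh D ≤ (uF D).ker := by
  apply normalClosure_le_normal
  intro x hx
  exact uF_Rall D hx

/-- `ub : X̂ → Φ(X̂)`. -/
noncomputable def ub : Xh D →* PhiXh D := QuotientGroup.lift (Nh D) (uF D) (Nh_le_ker_uF D)

@[simp] theorem ub_mk (w : F Z₀) : ub D (mk D w) = uF D w := rfl

/-! ### 3. `vP : Φ(X̂) → X̂` -/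

/-- `ker (F(Z₀) → H) = ⟨⟨RH⟩⟩` dies in `X̂`. -/
theorem ker_le_ker : (FreeGroup.lift D.gH).ker ≤ ((mk D).comp inc).ker := by
  rw [← D.RH_ker]
  apply normalClosure_le_normal
  intro r hr
  exact mk_inc_RH D hr

/-- `H → X̂`. -/
noncomputable def fH : H →* Xh D :=
  (FreeGroup.lift D.gH).liftOfSurjective D.gH_surj ⟨(mk D).comp inc, ker_le_ker D⟩

theorem fH_lift (w : FreeGroup Z₀) : fH D (FreeGroup.lift D.gH w) = mk D (inc w) := by
  exact MonoidHom.liftOfRightInverse_comp_apply _ _ _ ⟨(mk D).comp inc, ker_le_ker D⟩ w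

theorem fH_p (i : I) : fH D (D.p i) = mk D (inc (pt D i)) := by
  rw [← lift_pt, fH_lift]

/-- A homomorphism from `C₂` is an element of order dividing two. (`toFun x := if x = 1 then 1 else g`; the elements of
`ZMod 2` are `0, 1`.) -/
theorem exists_c2_hom {G : Type*} [Group G] (g : G) (hg : g * g = 1) : ∃ f : C2 →* G, f sig = g := by
  have key : ∀ x : C2, x = 1 ∨ x = sig := by decide
  have hne : sig ≠ 1 := by decide
  have hss : sig * sig = 1 := by decide
  refine ⟨MonoidHom.mk' (fun x => if x = 1 then 1 else g) ?_, ?_⟩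
  · intro a b
    rcases key a with rfl | rfl <;> rcases key b with rfl | rfl <;> simp [hne, hss, hg]
  · simp [hne]

/-- `C₂ → X̂`, `σ ↦ j`. -/
noncomputable def fC : C2 →* Xh D := Classical.choose (exists_c2_hom (mk D (jF D)) (mk_jF_sq D))

theorem fC_sig : fC D sig = mk D (jF D) := Classical.choose_spec (exists_c2_hom (mk D (jF D)) (mk_jF_sq D))

/-- `Y X̂ → X̂`: `θ̂` on `X̂`, `σ ↦ j`. -/
noncomputable def fY : Y (Xh D) →* Xh D := Coprod.lift (thh D) (fC D)

/-- Check on generators. -/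
theorem fY_labY (l : FreeGroup (Zj Z₀)) : fY D (labY (mark D) l) = mk D (labF D l) := by
  have h : (fY D).comp (labY (mark D)) = (mk D).comp (labF D) := by
    refine FreeGroup.ext_hom _ _ fun s => ?_
    rcases s with z | s
    · simp [fY, labY, labF, mark]
    · simp [fY, labY, labF, fC_sig]
  exact DFunLike.congr_fun h l

theorem fY_piX (i : I) : fY D (piX D (mark D) (FreeGroup.of i)) = mk D (labF D (D.lab i)) := by
  simp [piX, fY_labY]

/-- `labY (mark D)` is onto: `Y X̂` is generated by `inl (mark z)` and `inr σ` (`mk_surjective`, every element of `C₂` is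
`1` or `σ`; `Coprod.induction_on`). -/
theorem labY_surjective : Surjective (labY (mark D) : FreeGroup (Zj Z₀) →* Y (Xh D)) := by
  have hinl : ∀ w : F Z₀, labY (mark D) (FreeGroup.map Sum.inl w) = (inl (mk D w) : Y (Xh D)) := by
    intro w
    have h : (labY (mark D)).comp (FreeGroup.map Sum.inl)
        = (inl : Xh D →* Y (Xh D)).comp (mk D) := by
      refine FreeGroup.ext_hom _ _ fun z => ?_
      simp [labY, mark]
    exact DFunLike.congr_fun h w
  have key : ∀ x : C2, x = 1 ∨ x = sig := by decide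
  intro y
  induction y using Coprod.induction_on with
  | inl x =>
    obtain ⟨w, rfl⟩ := mk_surjective D x
    exact ⟨_, hinl w⟩
  | inr c =>
    rcases key c with rfl | rfl
    · exact ⟨1, by simp⟩
    · exact ⟨FreeGroup.of (Sum.inr PUnit.unit), by simp [labY]⟩
  | mul a b ha hb =>
    obtain ⟨la, rfl⟩ := ha
    obtain ⟨lb, rfl⟩ := hb
    exact ⟨la * lb, map_mul _ _ _⟩

/-- The images of `H` and `Y` commute: write `h = lift gH w`, `y = labY l`; then `mk (inc w)` and `mk (labF l)` commute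
because the generators do (`mk_comm`); two nested inductions (or `Subgroup.closure_induction₂`/centralizer argument). -/
theorem commute_fH_fY (h : H) (y : Y (Xh D)) : Commute (fH D h) (fY D y) := by
  obtain ⟨w, rfl⟩ := D.gH_surj h
  obtain ⟨l, rfl⟩ := labY_surjective D y
  rw [fH_lift, fY_labY]
  have h1 : ∀ (z : Z₀) (l : FreeGroup (Zj Z₀)),
      Commute (mk D (inc (FreeGroup.of z))) (mk D (labF D l)) := by
    intro z l
    induction l using FreeGroup.induction_on with
    | C1 => simp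
    | of s => exact (mk_comm D s z).symm
    | inv_of s ih =>
      rw [map_inv, map_inv]
      exact ih.inv_right
    | mul a b ha hb =>
      rw [map_mul, map_mul]
      exact ha.mul_right hb
  induction w using FreeGroup.induction_on with
  | C1 => simp
  | of z => exact h1 z l
  | inv_of z ih =>
    rw [map_inv, map_inv]
    exact ih.inv_left
  | mul a b ha hb =>
    rw [map_mul, map_mul]
    exact ha.mul_left hb

/-- `H × Y → X̂`. -/
noncomputable def fB : H × Y (Xh D) →* Xh D := MonoidHom.noncommCoprod (fH D) (fY D) (commute_fH_fY D)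

theorem fB_apply (h : H) (y : Y (Xh D)) : fB D (h, y) = fH D h * fY D y := rfl

/-- The HNN relation. The set of `w` with this property is closed under products and inverses; for `w = of i` it is
`ρ p̃ = p̃ (p̃⁻¹ ρ p̃ ρ⁻¹) ρ` and `mk_brk`, `fY_piX`, `fH_p`. -/
theorem rho_mul_fB (w : FreeGroup I) :
    mk D rhoF * fB D (iA D (Xh D) w) = fB D (iB D (mark D) w) * mk D rhoF := by
  induction w using FreeGroup.induction_on with
  | C1 => simp
  | of i =>
    have hA : fB D (iA D (Xh D) (FreeGroup.of i)) = mk D (inc (pt D i)) := by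
      show fB D (FreeGroup.lift D.p (FreeGroup.of i), 1) = _
      rw [fB_apply, map_one, mul_one, FreeGroup.lift_apply_of, fH_p]
    have hB : fB D (iB D (mark D) (FreeGroup.of i))
        = mk D (inc (pt D i)) * mk D (brk D i) := by
      show fB D (FreeGroup.lift D.p (FreeGroup.of i), piX D (mark D) (FreeGroup.of i)) = _
      rw [fB_apply, FreeGroup.lift_apply_of, fH_p, fY_piX, mk_brk]
    show mk D rhoF * fB D (iA D (Xh D) (FreeGroup.of i))
      = fB D (iB D (mark D) (FreeGroup.of i)) * mk D rhoF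
    rw [hA, hB, brk]
    simp only [map_mul, map_inv]
    group
  | inv_of i ih =>
    rw [map_inv, map_inv, map_inv, map_inv]
    rw [eq_inv_mul_iff_mul_eq, ← mul_assoc, ← ih, mul_assoc, mul_inv_cancel, mul_one]
  | mul a b ha hb =>
    rw [map_mul, map_mul, map_mul, map_mul, ← mul_assoc, ha, mul_assoc, hb, mul_assoc]

theorem vP_hyp : ∀ (i : Unit) (a : (iA D (Xh D)).range),
    (fun _ : Unit => mk D rhoF) i * fB D (a : H × Y (Xh D)) =
      fB D (eqv D (mark D) a : H × Y (Xh D)) * (fun _ : Unit => mk D rhoF) i := by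
  rintro _ ⟨a, ha⟩
  obtain ⟨w, rfl⟩ := MonoidHom.mem_range.1 ha
  have h := eqv_iA D (mark D) w ha
  show mk D rhoF * fB D (iA D (Xh D) w) = fB D (eqv D (mark D) ⟨iA D (Xh D) w, ha⟩ : H × Y (Xh D)) * mk D rhoF
  rw [h]
  exact rho_mul_fB D w

/-- `vP : Φ(X̂) → X̂`. -/
noncomputable def vP : PhiXh D →* Xh D := MHNN.lift (fB D) (fun _ => mk D rhoF) (vP_hyp D)

end Claimed.Agent.R152.FP
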