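/-
Row 152, module FP (helper145).  `e : X̂ ≃* Φ(X̂)`, `θ̂` is injective, `H` embeds.
-/
import Claimed.Agent.R152.FP.Hom

set_option autoImplicit false

namespace Claimed.Agent.R152.FP

open Subgroup Function Monoid Coprod
open Claimed.Agent.R152.H

universe u

variable {H : Type u} [Group H] {Z₀ I : Type u} (D : Input H Z₀ I)

@[simp] theorem vP_of (b : H × Y (Xh D)) : vP D (MHNN.of b) = fB D b := by
  simp [vP]

@[simp] theorem vP_t : vP D (MHNN.t ()) = mk D rhoF := by
  simp [vP]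

/-- `vP ∘ uF = mk` : check on the generators `inl z₀` (`fB (g z₀, 1) = fH (g z₀) = fH (lift gH (of z₀)) = mk (inc (of z₀))`,
`inc (of z₀) = of (inl z₀)`) and `inr ()`. -/
theorem vP_uF (w : F Z₀) : vP D (uF D w) = mk D w := by
  have h : (vP D).comp (uF D) = mk D := by
    apply FreeGroup.ext_hom
    rintro (z | u)
    · have h1 : fH D (D.gH z) = mk D (inc (FreeGroup.of z)) := by
        rw [← fH_lift]
        simp
      simp [uF, fB_apply, h1, inc]
    · simp [uF, rhoF]
  exact DFunLike.congr_fun h w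

theorem vP_ub (x : Xh D) : vP D (ub D x) = x := by
  obtain ⟨w, rfl⟩ := mk_surjective D x
  rw [ub_mk, vP_uF]

/-- `h = lift gH w`, `fH_lift`, `ub_mk`, `uF_inc`. -/
theorem ub_fH (h : H) : ub D (fH D h) = MHNN.of ((h, 1) : H × Y (Xh D)) := by
  obtain ⟨w, rfl⟩ := D.gH_surj h
  rw [fH_lift, ub_mk, uF_inc]

/-- `y = labY l` (`labY_surjective`), `fY_labY`, `ub_mk`, `uF_labF`. -/
theorem ub_fY (y : Y (Xh D)) : ub D (fY D y) = MHNN.of ((1, y) : H × Y (Xh D)) := by
  obtain ⟨l, rfl⟩ := labY_surjective D y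
  rw [fY_labY, ub_mk, uF_labF]

theorem ub_fB (b : H × Y (Xh D)) : ub D (fB D b) = MHNN.of b := by
  obtain ⟨h, y⟩ := b
  rw [fB_apply, map_mul, ub_fH, ub_fY, ← map_mul]
  simp

/-- `MHNN.hom_ext` / `MHNN.induction_on` with `ub_fB`, `vP_t`, `ub_mk`, `uF_rhoF`. -/
theorem ub_vP (x : PhiXh D) : ub D (vP D x) = x := by
  have h : (ub D).comp (vP D) = MonoidHom.id _ := by
    apply MHNN.hom_ext
    · apply MonoidHom.ext
      intro b
      simp [ub_fB]
    · intro i
      cases i
      simp only [MonoidHom.comp_apply, MonoidHom.id_apply]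
      rw [vP_t, ub_mk, uF_rhoF]
  exact DFunLike.congr_fun h x

/-- **The fixed point.** -/
noncomputable def e : Xh D ≃* PhiXh D :=
  { toFun := ub D
    invFun := vP D
    left_inv := vP_ub D
    right_inv := ub_vP D
    map_mul' := map_mul (ub D) }

@[simp] theorem e_apply (x : Xh D) : e D x = ub D x := rfl

@[simp] theorem e_symm_apply (x : PhiXh D) : (e D).symm x = vP D x := rfl

/-- `e (θ̂ x) = (1, inl x)`. -/
theorem e_thh (x : Xh D) : e D (thh D x) = MHNN.of ((1, inl x) : H × Y (Xh D)) := by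
  obtain ⟨w, rfl⟩ := mk_surjective D x
  rw [thh_mk, e_apply, ub_mk, uF_thF]

theorem e_fH (h : H) : e D (fH D h) = MHNN.of ((h, 1) : H × Y (Xh D)) := ub_fH D h

theorem e_rho : e D (mk D rhoF) = MHNN.t () := by
  rw [e_apply, ub_mk, uF_rhoF]

theorem e_j : e D (mk D (jF D)) = MHNN.of ((1, inr sig) : H × Y (Xh D)) := by
  rw [e_apply, ub_mk, uF_jF]

/-- `MHNN.of_injective`, `Monoid.Coprod.inl_injective`, `e_thh`. -/
theorem thh_injective : Injective (thh D) := by
  intro x y h
  have h1 := congrArg (e D) h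
  rw [e_thh, e_thh] at h1
  have h2 := MHNN.of_injective h1
  exact Monoid.Coprod.inl_injective (congrArg Prod.snd h2)

/-- `MHNN.of_injective`, `e_fH`. -/
theorem fH_injective : Injective (fH D) := by
  intro x y h
  have h1 := congrArg (e D) h
  rw [e_fH, e_fH] at h1
  have h2 := MHNN.of_injective h1
  exact congrArg Prod.fst h2

/-- `X̂` is generated by the marking. -/
theorem closure_mark : closure (Set.range (mark D)) = ⊤ := by
  have h1 : Set.range (mark D) = (mk D) '' Set.range FreeGroup.of := by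
    rw [← Set.range_comp]
    rfl
  rw [h1, ← MonoidHom.map_closure, FreeGroup.closure_range_of,
    Subgroup.map_top_of_surjective _ (mk_surjective D)]

/-- `θ̂` on the marking: `θ̂ (mark z) = p_z⁻¹ ρ p_z ρ⁻¹`. -/
theorem thh_mark (z : Zt Z₀) :
    thh D (mark D z) = (fH D (D.p (D.iz z)))⁻¹ * mk D rhoF * fH D (D.p (D.iz z)) * (mk D rhoF)⁻¹ := by
  show thh D (mk D (FreeGroup.of z)) = _
  rw [thh_mk, fH_p]
  simp [thF, brk]

theorem j_eq : mk D (jF D) = (fH D (D.p D.ij))⁻¹ * mk D rhoF * fH D (D.p D.ij) * (mk D rhoF)⁻¹ := by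
  rw [fH_p]
  simp [jF, brk]

end Claimed.Agent.R152.FP
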