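/-
Row 152, module FP (helper145).  `Δ = X̂ *_θ̂` (ascending HNN extension), finitely presented.
-/
import Claimed.Agent.R152.FP.Iso

set_option autoImplicit false

namespace Claimed.Agent.R152.FP

open Subgroup Function Monoid Coprod
open Claimed.Agent.R152.H

universe u

variable {H : Type u} [Group H] {Z₀ I : Type u} (D : Input H Z₀ I)

/-- `⊤ ≃* range θ̂`. -/
noncomputable def thEqv : (⊤ : Subgroup (Xh D)) ≃* (thh D).range :=
  Subgroup.topEquiv.trans (MonoidHom.ofInjective (thh_injective D))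

theorem thEqv_apply (x : Xh D) (h : x ∈ (⊤ : Subgroup (Xh D))) :
    (thEqv D ⟨x, h⟩ : Xh D) = thh D x := rfl

/-- `Δ`. -/
abbrev Delta : Type u :=
  MHNN (Xh D) (fun _ : Unit => (⊤ : Subgroup (Xh D))) (fun _ => (thh D).range) (fun _ => thEqv D)

/-- `X̂ → Δ`. -/
noncomputable def ofX : Xh D →* Delta D := MHNN.of

/-- The stable letter `τ`. -/
noncomputable def tau : Delta D := MHNN.t ()

theorem ofX_injective : Injective (ofX D) := MHNN.of_injective

/-- `τ x τ⁻¹ = θ̂ x` (`MHNN.t_mul_of` with `a = ⟨x, trivial⟩`). -/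
theorem tau_conj (x : Xh D) : tau D * ofX D x * (tau D)⁻¹ = ofX D (thh D x) := by
  have h := MHNN.t_mul_of (φ := fun _ : Unit => thEqv D) () ⟨x, Subgroup.mem_top x⟩
  rw [thEqv_apply] at h
  unfold tau ofX
  rw [h, mul_inv_cancel_right]

/-- The degree (`MHNN.lift 1 (fun _ => ofAdd 1)`). -/
theorem exists_deg : ∃ d : Delta D →* Multiplicative ℤ, d (tau D) = Multiplicative.ofAdd 1 ∧
    ∀ x, d (ofX D x) = 1 := by
  refine ⟨MHNN.lift 1 (fun _ => Multiplicative.ofAdd 1) (by intro i a; simp), ?_, ?_⟩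
  · unfold tau
    rw [MHNN.lift_t]
  · intro x
    unfold ofX
    rw [MHNN.lift_of]
    rfl

/-- `Δ = ⟨X̂, τ⟩` (`MHNN.closure_of_t` or `MHNN.induction_on`). -/
theorem gen (Q : Subgroup (Delta D)) (hX : (ofX D).range ≤ Q) (ht : tau D ∈ Q) : Q = ⊤ := by
  rw [eq_top_iff]
  intro x _
  induction x using MHNN.induction_on with
  | of g => exact hX ⟨g, rfl⟩
  | t i => exact ht
  | mul x y hx hy => exact mul_mem (hx trivial) (hy trivial)
  | inv x hx => exact inv_mem (hx trivial)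

/-! ### Finite presentation -/

/-- `F(Z) ∗ F(τ) → Δ`. -/
noncomputable def toDelta : F Z₀ ∗ FreeGroup Unit →* Delta D := MHNN.fromCoprod (mk D)

/-- The finite set of relators of `Δ`: `Rfin` and `τ z τ⁻¹ (θ_F z)⁻¹`. -/
def RDelta : Set (F Z₀ ∗ FreeGroup Unit) :=
  ((inl : F Z₀ → F Z₀ ∗ FreeGroup Unit) '' Rfin D) ∪
    {x | ∃ z : Zt Z₀, x = inr (FreeGroup.of ()) * inl (FreeGroup.of z) * (inr (FreeGroup.of ()))⁻¹ *
      (inl (thF D (FreeGroup.of z)))⁻¹}

/-- Finite unions / images / ranges of finite sets (`Set.Finite.image`, `Set.finite_range`, `Set.Finite.subset`). -/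
theorem Rfin_finite [Finite Z₀] [Finite I] : (Rfin D).Finite := by
  unfold Rfin
  refine Set.Finite.union (Set.Finite.union (Set.Finite.union (D.RH_fin.image _) ?_)
    (Set.finite_singleton _)) ?_
  · refine (Set.finite_range (fun sz : Zj Z₀ × Z₀ =>
      labF D (FreeGroup.of sz.1) * inc (FreeGroup.of sz.2) * (labF D (FreeGroup.of sz.1))⁻¹ *
      (inc (FreeGroup.of sz.2))⁻¹)).subset ?_
    rintro x ⟨s, z, rfl⟩
    exact ⟨(s, z), rfl⟩
  · refine (Set.finite_range (fun i : I => brk D i * (labF D (D.lab i))⁻¹)).subset ?_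
    rintro x ⟨i, rfl⟩
    exact ⟨i, rfl⟩

theorem RDelta_finite [Finite Z₀] [Finite I] : (RDelta D).Finite := by
  unfold RDelta
  refine Set.Finite.union ((Rfin_finite D).image _) ?_
  refine (Set.finite_range (fun z : Zt Z₀ =>
    (inr (FreeGroup.of ()) * inl (FreeGroup.of z) * (inr (FreeGroup.of ()))⁻¹ *
      (inl (thF D (FreeGroup.of z)))⁻¹ : F Z₀ ∗ FreeGroup Unit))).subset ?_
  rintro x ⟨z, rfl⟩
  exact ⟨z, rfl⟩

/-- `MHNN.ker_fromCoprod` with `p = mk D`, `R () = {(of z, θ_F (of z))}`: the `mk (of z)` generate `⊤` (`closure_mark`). -/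
theorem ker_toDelta : (toDelta D).ker =
    normalClosure (((inl : F Z₀ → F Z₀ ∗ FreeGroup Unit) '' ((mk D).ker : Set (F Z₀))) ∪
      MHNN.relators (fun _ : Unit => {r : F Z₀ × F Z₀ | ∃ z : Zt Z₀,
        r = (FreeGroup.of z, thF D (FreeGroup.of z))})) := by
  refine MHNN.ker_fromCoprod (mk D) (mk_surjective D) _ ?_ ?_
  · rintro i r ⟨z, rfl⟩
    exact ⟨⟨mk D (FreeGroup.of z), Subgroup.mem_top _⟩, rfl, rfl⟩
  · intro i
    rw [← closure_mark D]
    congr 1
    ext y
    constructor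
    · rintro ⟨r, ⟨z, rfl⟩, rfl⟩
      exact ⟨z, rfl⟩
    · rintro ⟨z, rfl⟩
      exact ⟨_, ⟨z, rfl⟩, rfl⟩

/-- Modulo `⟨⟨RDelta⟩⟩`: `τ inl(w) τ⁻¹ = inl (θ_F w)` for ALL `w` (true for generators; both sides are homomorphisms).
Statement: the element `τ inl(w) τ⁻¹ inl(θ_F w)⁻¹` lies in the normal closure. Work in the quotient group. -/
theorem conj_mem (w : F Z₀) :
    inr (FreeGroup.of ()) * inl w * (inr (FreeGroup.of ()))⁻¹ * (inl (thF D w))⁻¹ ∈
      normalClosure (RDelta D) := by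
  set N : Subgroup (F Z₀ ∗ FreeGroup Unit) := normalClosure (RDelta D) with hN
  let q : F Z₀ ∗ FreeGroup Unit →* (F Z₀ ∗ FreeGroup Unit) ⧸ N := QuotientGroup.mk' N
  let f1 : F Z₀ →* (F Z₀ ∗ FreeGroup Unit) ⧸ N :=
    (MulAut.conj (q (inr (FreeGroup.of ())))).toMonoidHom.comp (q.comp inl)
  let f2 : F Z₀ →* (F Z₀ ∗ FreeGroup Unit) ⧸ N := q.comp (inl.comp (thF D))
  have h12 : f1 = f2 := by
    apply FreeGroup.ext_hom
    intro z
    have hrel : q (inr (FreeGroup.of ()) * inl (FreeGroup.of z) * (inr (FreeGroup.of ()))⁻¹ *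
        (inl (thF D (FreeGroup.of z)))⁻¹) = 1 := by
      rw [QuotientGroup.mk'_apply, QuotientGroup.eq_one_iff]
      exact subset_normalClosure (Or.inr ⟨z, rfl⟩)
    rw [map_mul, map_inv, mul_inv_eq_one] at hrel
    show q (inr (FreeGroup.of ())) * q (inl (FreeGroup.of z)) * (q (inr (FreeGroup.of ())))⁻¹
      = q (inl (thF D (FreeGroup.of z)))
    rw [← hrel, map_mul, map_mul, map_inv]
  have hw : f1 w = f2 w := by rw [h12]
  have hw' : q (inr (FreeGroup.of ())) * q (inl w) * (q (inr (FreeGroup.of ())))⁻¹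
      = q (inl (thF D w)) := hw
  have hfin : q (inr (FreeGroup.of ()) * inl w * (inr (FreeGroup.of ()))⁻¹ *
      (inl (thF D w))⁻¹) = 1 := by
    rw [map_mul, map_inv, mul_inv_eq_one, map_mul, map_mul, map_inv]
    exact hw'
  rwa [QuotientGroup.mk'_apply, QuotientGroup.eq_one_iff] at hfin

/-- `inl (θ_Fⁿ r) ∈ ⟨⟨RDelta⟩⟩` for `r ∈ Rfin`: induction on `n` with `conj_mem` (a conjugate of an element of a normal
subgroup). -/
theorem inl_Rall_mem {x : F Z₀} (h : x ∈ Rall D) : (inl x : F Z₀ ∗ FreeGroup Unit) ∈ normalClosure (RDelta D) := by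
  obtain ⟨n, r, hr, rfl⟩ := h
  induction n with
  | zero => exact subset_normalClosure (Or.inl ⟨r, hr, rfl⟩)
  | succ n ih =>
    rw [Function.iterate_succ_apply']
    have h1 := conj_mem D ((thF D)^[n] r)
    have h2 : inr (FreeGroup.of ()) * inl ((thF D)^[n] r) * (inr (FreeGroup.of ()))⁻¹ ∈
        normalClosure (RDelta D) :=
      (normalClosure_normal (s := RDelta D)).conj_mem _ ih _
    have h3 := (normalClosure (RDelta D)).mul_mem ((normalClosure (RDelta D)).inv_mem h2) h1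
    rw [← mul_assoc, inv_mul_cancel, one_mul] at h3
    exact (normalClosure (RDelta D)).inv_mem_iff.1 h3

/-- `inl (N̂) ⊆ ⟨⟨RDelta⟩⟩`: the comap of a normal subgroup is normal and contains `Rall`. -/
theorem inl_Nh_mem {x : F Z₀} (h : x ∈ Nh D) : (inl x : F Z₀ ∗ FreeGroup Unit) ∈ normalClosure (RDelta D) := by
  have h1 : Nh D ≤ (normalClosure (RDelta D)).comap (inl : F Z₀ →* F Z₀ ∗ FreeGroup Unit) := by
    apply normalClosure_le_normal
    intro y hy
    exact inl_Rall_mem D hy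
  exact h1 h

/-- `ker = ⟨⟨RDelta⟩⟩`: `ker_toDelta`; `⊆` by `inl_Nh_mem` (`(mk D).ker = Nh D`) and relators `⊆ RDelta`;
`⊇` because `Rfin ⊆ Nh`. -/
theorem ker_toDelta_eq : (toDelta D).ker = normalClosure (RDelta D) := by
  rw [ker_toDelta]
  apply le_antisymm
  · apply normalClosure_le_normal
    rintro x (⟨w, hw, rfl⟩ | ⟨i, r, ⟨z, rfl⟩, rfl⟩)
    · exact inl_Nh_mem D ((mk_eq_one_iff D).1 hw)
    · exact subset_normalClosure (Or.inr ⟨z, rfl⟩)
  · apply normalClosure_mono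
    rintro x (⟨w, hw, rfl⟩ | ⟨z, rfl⟩)
    · exact Or.inl ⟨w, mk_Rfin D hw, rfl⟩
    · exact Or.inr ⟨(), _, ⟨z, rfl⟩, rfl⟩

/-- **`Δ` is finitely presented.** `Group.IsFinitelyPresented.of_surjective (toDelta D)` (`MHNN.fromCoprod_surjective`,
the coproduct of two f.g. free groups is f.p. by Mathlib instances). -/
theorem delta_isFinitelyPresented [Finite Z₀] [Finite I] : Group.IsFinitelyPresented (Delta D) := by
  exact Group.IsFinitelyPresented.of_surjective (toDelta D)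
    (MHNN.fromCoprod_surjective _ (mk_surjective D))
    ⟨RDelta D, RDelta_finite D, (ker_toDelta_eq D).symm⟩

end Claimed.Agent.R152.FP
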